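import Mathlib

/-!
A rotation invariant finite measure and the standard Gaussian measure integrate positively
homogeneous functions of degree one in the same way, up to the factor given by the mean norm.
Proof by characteristic functions: under the product of the two measures, the vectors
`‖g‖ • w` and `‖w‖ • g` have the same law.
-/

open MeasureTheory ProbabilityTheory

namespace Vale.Agent.Lib.P226.H68

theorem integral_inner_invariant {E : Type*} [NormedAddCommGroup E] [InnerProductSpace ℝ E]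
    [MeasurableSpace E] [BorelSpace E]
    (μ : Measure E) (hμ : ∀ U : E ≃ₗᵢ[ℝ] E, μ.map U = μ) (F : ℝ → ℂ) (hF : Continuous F)
    (t t' : E) (h : ‖t‖ = ‖t'‖) :
    ∫ w, F (inner ℝ w t) ∂μ = ∫ w, F (inner ℝ w t') ∂μ := by
  have hU : (Submodule.reflection (ℝ ∙ (t - t'))ᗮ) t = t' := Submodule.reflection_sub h
  have hcm : Continuous (fun w : E => F (inner ℝ w t')) := by fun_prop
  calc ∫ w, F (inner ℝ w t) ∂μ
      = ∫ w, F (inner ℝ ((Submodule.reflection (ℝ ∙ (t - t'))ᗮ) w)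
          ((Submodule.reflection (ℝ ∙ (t - t'))ᗮ) t)) ∂μ := by
        simp only [LinearIsometryEquiv.inner_map_map]
    _ = ∫ w, F (inner ℝ ((Submodule.reflection (ℝ ∙ (t - t'))ᗮ) w) t') ∂μ := by rw [hU]
    _ = ∫ w, F (inner ℝ w t') ∂(μ.map (Submodule.reflection (ℝ ∙ (t - t'))ᗮ)) := by
        rw [integral_map (Submodule.reflection (ℝ ∙ (t - t'))ᗮ).continuous.measurable.aemeasurable
          hcm.aestronglyMeasurable]
    _ = ∫ w, F (inner ℝ w t') ∂μ := by rw [hμ]

section Main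

variable {E : Type*} [NormedAddCommGroup E] [InnerProductSpace ℝ E]
    [FiniteDimensional ℝ E] [MeasurableSpace E] [BorelSpace E]

/-- Bounded continuous phases are integrable on a finite measure. -/
theorem integrable_phase {X : Type*} [MeasurableSpace X] [TopologicalSpace X]
    [OpensMeasurableSpace X] (P : Measure X) [IsFiniteMeasure P] (f : X → ℝ) (hf : Continuous f) :
    Integrable (fun p => Complex.exp ((f p : ℂ) * Complex.I)) P := by
  have hc : Continuous (fun p => Complex.exp ((f p : ℂ) * Complex.I)) := by fun_prop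
  refine (integrable_const (1 : ℝ)).mono' hc.aestronglyMeasurable (Filter.Eventually.of_forall ?_)
  intro p
  rw [Complex.norm_exp_ofReal_mul_I]

/-- The Gaussian integral of a phase. -/
theorem gauss_phase (u : E) :
    ∫ g, Complex.exp ((inner ℝ g u : ℂ) * Complex.I) ∂(stdGaussian E)
      = Complex.exp (-((‖u‖ : ℂ)) ^ 2 / 2) := by
  have h := charFun_stdGaussian (E := E) u
  rw [charFun_apply] at h
  exact h

/-- The two mixed laws coincide. -/
theorem map_norm_smul_eq (μ : Measure E) [IsFiniteMeasure μ]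
    (hμ : ∀ U : E ≃ₗᵢ[ℝ] E, μ.map U = μ) :
    (μ.prod (stdGaussian E)).map (fun p : E × E => ‖p.2‖ • p.1)
      = (μ.prod (stdGaussian E)).map (fun p : E × E => ‖p.1‖ • p.2) := by
  have hφ1 : Measurable (fun p : E × E => ‖p.2‖ • p.1) := by fun_prop
  have hφ2 : Measurable (fun p : E × E => ‖p.1‖ • p.2) := by fun_prop
  have : IsFiniteMeasure ((μ.prod (stdGaussian E)).map (fun p : E × E => ‖p.2‖ • p.1)) :=
    Measure.isFiniteMeasure_map _ _
  have : IsFiniteMeasure ((μ.prod (stdGaussian E)).map (fun p : E × E => ‖p.1‖ • p.2)) :=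
    Measure.isFiniteMeasure_map _ _
  apply Measure.ext_of_charFun
  funext t
  have hc1 : Continuous (fun x : E => Complex.exp ((inner ℝ x t : ℂ) * Complex.I)) := by fun_prop
  rw [charFun_apply, charFun_apply, integral_map hφ1.aemeasurable hc1.aestronglyMeasurable,
    integral_map hφ2.aemeasurable hc1.aestronglyMeasurable]
  -- right-hand side
  have hR : ∫ p : E × E, Complex.exp ((inner ℝ (‖p.1‖ • p.2) t : ℂ) * Complex.I)
        ∂(μ.prod (stdGaussian E))
      = ∫ w, Complex.exp (-((‖‖w‖ • t‖ : ℂ)) ^ 2 / 2) ∂μ := by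
    rw [integral_prod _ (integrable_phase _ (fun p : E × E => inner ℝ (‖p.1‖ • p.2) t)
      (by fun_prop))]
    refine integral_congr_ae (Filter.Eventually.of_forall (fun w => ?_))
    show ∫ g, Complex.exp ((inner ℝ (‖w‖ • g) t : ℂ) * Complex.I) ∂(stdGaussian E)
      = Complex.exp (-((‖‖w‖ • t‖ : ℂ)) ^ 2 / 2)
    rw [← gauss_phase (‖w‖ • t)]
    refine integral_congr_ae (Filter.Eventually.of_forall (fun g => ?_))
    show Complex.exp ((inner ℝ (‖w‖ • g) t : ℂ) * Complex.I)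
      = Complex.exp ((inner ℝ g (‖w‖ • t) : ℂ) * Complex.I)
    rw [inner_smul_left, inner_smul_right]
    rfl
  -- left-hand side
  have hL1 : ∀ g : E, ∫ w, Complex.exp ((inner ℝ (‖g‖ • w) t : ℂ) * Complex.I) ∂μ
      = ∫ w, Complex.exp ((inner ℝ w (‖t‖ • g) : ℂ) * Complex.I) ∂μ := by
    intro g
    by_cases hg : g = 0
    · subst hg
      simp
    · have hgn : ‖g‖ ≠ 0 := norm_ne_zero_iff.mpr hg
      have hn : ‖t‖ = ‖(‖t‖ / ‖g‖) • g‖ := by
        rw [norm_smul, Real.norm_eq_abs, abs_of_nonneg (by positivity), div_mul_cancel₀ _ hgn]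
      have hinv := integral_inner_invariant μ hμ
        (fun s : ℝ => Complex.exp (((‖g‖ * s : ℝ) : ℂ) * Complex.I)) (by fun_prop) t _ hn
      calc ∫ w, Complex.exp ((inner ℝ (‖g‖ • w) t : ℂ) * Complex.I) ∂μ
          = ∫ w, Complex.exp (((‖g‖ * inner ℝ w t : ℝ) : ℂ) * Complex.I) ∂μ := by
            refine integral_congr_ae (Filter.Eventually.of_forall (fun w => ?_))
            show Complex.exp ((inner ℝ (‖g‖ • w) t : ℂ) * Complex.I)
              = Complex.exp (((‖g‖ * inner ℝ w t : ℝ) : ℂ) * Complex.I)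
            rw [real_inner_smul_left]
        _ = ∫ w, Complex.exp (((‖g‖ * inner ℝ w ((‖t‖ / ‖g‖) • g) : ℝ) : ℂ) * Complex.I) ∂μ :=
            hinv
        _ = ∫ w, Complex.exp ((inner ℝ w (‖t‖ • g) : ℂ) * Complex.I) ∂μ := by
            refine integral_congr_ae (Filter.Eventually.of_forall (fun w => ?_))
            show Complex.exp (((‖g‖ * inner ℝ w ((‖t‖ / ‖g‖) • g) : ℝ) : ℂ) * Complex.I)
              = Complex.exp ((inner ℝ w (‖t‖ • g) : ℂ) * Complex.I)
            rw [real_inner_smul_right, real_inner_smul_right]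
            congr 3
            field_simp
  have hL : ∫ p : E × E, Complex.exp ((inner ℝ (‖p.2‖ • p.1) t : ℂ) * Complex.I)
        ∂(μ.prod (stdGaussian E))
      = ∫ w, Complex.exp (-((‖‖w‖ • t‖ : ℂ)) ^ 2 / 2) ∂μ := by
    rw [integral_prod_symm _ (integrable_phase _ (fun p : E × E => inner ℝ (‖p.2‖ • p.1) t)
      (by fun_prop))]
    have h1 : ∫ g, ∫ w, Complex.exp ((inner ℝ (‖g‖ • w) t : ℂ) * Complex.I) ∂μ ∂(stdGaussian E)
        = ∫ g, ∫ w, Complex.exp ((inner ℝ w (‖t‖ • g) : ℂ) * Complex.I) ∂μ ∂(stdGaussian E) :=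
      integral_congr_ae (Filter.Eventually.of_forall (fun g => hL1 g))
    have h2 : ∫ g, ∫ w, Complex.exp ((inner ℝ w (‖t‖ • g) : ℂ) * Complex.I) ∂μ ∂(stdGaussian E)
        = ∫ w, ∫ g, Complex.exp ((inner ℝ w (‖t‖ • g) : ℂ) * Complex.I) ∂(stdGaussian E) ∂μ := by
      refine integral_integral_swap
        (f := fun g w : E => Complex.exp ((inner ℝ w (‖t‖ • g) : ℂ) * Complex.I)) ?_
      exact integrable_phase _ (fun p : E × E => inner ℝ p.2 (‖t‖ • p.1)) (by fun_prop)
    have h3 : ∀ w : E, ∫ g, Complex.exp ((inner ℝ w (‖t‖ • g) : ℂ) * Complex.I) ∂(stdGaussian E)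
        = Complex.exp (-((‖‖w‖ • t‖ : ℂ)) ^ 2 / 2) := by
      intro w
      have hnorm : ‖‖w‖ • t‖ = ‖‖t‖ • w‖ := by
        rw [norm_smul, norm_smul, norm_norm, norm_norm, mul_comm]
      rw [hnorm, ← gauss_phase (‖t‖ • w)]
      refine integral_congr_ae (Filter.Eventually.of_forall (fun g => ?_))
      show Complex.exp ((inner ℝ w (‖t‖ • g) : ℂ) * Complex.I)
        = Complex.exp ((inner ℝ g (‖t‖ • w) : ℂ) * Complex.I)
      rw [real_inner_smul_right, real_inner_smul_right, real_inner_comm]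
    calc ∫ g, ∫ w, Complex.exp ((inner ℝ (‖g‖ • w) t : ℂ) * Complex.I) ∂μ ∂(stdGaussian E)
        = ∫ w, ∫ g, Complex.exp ((inner ℝ w (‖t‖ • g) : ℂ) * Complex.I) ∂(stdGaussian E) ∂μ :=
          h1.trans h2
      _ = ∫ w, Complex.exp (-((‖‖w‖ • t‖ : ℂ)) ^ 2 / 2) ∂μ :=
          integral_congr_ae (Filter.Eventually.of_forall (fun w => h3 w))
  rw [hL, hR]

end Main

theorem invariant_integral_hom {E : Type*} [NormedAddCommGroup E] [InnerProductSpace ℝ E]
    [FiniteDimensional ℝ E] [MeasurableSpace E] [BorelSpace E]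
    (μ : Measure E) [IsFiniteMeasure μ]
    (hμ : ∀ U : E ≃ₗᵢ[ℝ] E, μ.map U = μ)
    (hint : Integrable (fun w : E => ‖w‖) μ)
    (h : E → ℝ) (hmeas : Measurable h)
    (hhom : ∀ (t : ℝ), 0 ≤ t → ∀ x, h (t • x) = t * h x)
    (C : ℝ) (hC : ∀ x, |h x| ≤ C * ‖x‖) :
    (∫ g, ‖g‖ ∂(stdGaussian E)) * ∫ w, h w ∂μ
      = (∫ w, ‖w‖ ∂μ) * ∫ g, h g ∂(stdGaussian E) := by
  have _hint := hint
  have _hC := hC
  have hφ1 : Measurable (fun p : E × E => ‖p.2‖ • p.1) := by fun_prop
  have hφ2 : Measurable (fun p : E × E => ‖p.1‖ • p.2) := by fun_prop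
  have h1 : ∫ x, h x ∂((μ.prod (stdGaussian E)).map (fun p : E × E => ‖p.2‖ • p.1))
      = (∫ w, h w ∂μ) * ∫ g, ‖g‖ ∂(stdGaussian E) := by
    rw [integral_map hφ1.aemeasurable hmeas.aestronglyMeasurable, ← integral_prod_mul]
    refine integral_congr_ae (Filter.Eventually.of_forall (fun p => ?_))
    show h (‖p.2‖ • p.1) = h p.1 * ‖p.2‖
    rw [hhom _ (norm_nonneg _), mul_comm]
  have h2 : ∫ x, h x ∂((μ.prod (stdGaussian E)).map (fun p : E × E => ‖p.1‖ • p.2))
      = (∫ w, ‖w‖ ∂μ) * ∫ g, h g ∂(stdGaussian E) := by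
    rw [integral_map hφ2.aemeasurable hmeas.aestronglyMeasurable, ← integral_prod_mul]
    refine integral_congr_ae (Filter.Eventually.of_forall (fun p => ?_))
    show h (‖p.1‖ • p.2) = ‖p.1‖ * h p.2
    rw [hhom _ (norm_nonneg _)]
  rw [mul_comm, ← h1, map_norm_smul_eq μ hμ, h2]

end Vale.Agent.Lib.P226.H68

namespace Vale.Agent.Lib.P226.H68.Check

example : ∀ {E : Type*} [NormedAddCommGroup E] [InnerProductSpace ℝ E]
    [FiniteDimensional ℝ E] [MeasurableSpace E] [BorelSpace E]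
    (μ : Measure E) [IsFiniteMeasure μ]
    (_ : ∀ U : E ≃ₗᵢ[ℝ] E, μ.map U = μ)
    (_ : Integrable (fun w : E => ‖w‖) μ)
    (h : E → ℝ) (_ : Measurable h)
    (_ : ∀ (t : ℝ), 0 ≤ t → ∀ x, h (t • x) = t * h x)
    (C : ℝ) (_ : ∀ x, |h x| ≤ C * ‖x‖),
    (∫ g, ‖g‖ ∂(stdGaussian E)) * ∫ w, h w ∂μ
      = (∫ w, ‖w‖ ∂μ) * ∫ g, h g ∂(stdGaussian E) :=
  @Vale.Agent.Lib.P226.H68.invariant_integral_hom

end Vale.Agent.Lib.P226.H68.Check
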